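import Vale.Agent.P006.V1C.Main
import Vale.Agent.P006.V1.Total
import Vale.Agent.P006.V1X.Sep

/-!
P006, block V1: `V1Hyp` from the cube kernel estimate only.
-/

namespace Vale.Agent.P006.V1F

open scoped BigOperators Classical
open Vale.Agent.P006 Finset
open Vale.Agent.P006.DISP
open Vale.Agent.P006.V1 (supp NCtot)

theorem double_supp (α : O → ℂ) (A : ℝ) (F : O → O → ℂ) :
    ∑ a1 ∈ SPB (2 * A), ∑ a2 ∈ SPB (2 * A), α a1 * (starRingEnd ℂ) (α a2) * F a1 a2 =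
    ∑ a1 ∈ supp α A, ∑ a2 ∈ supp α A, (α a1 * (starRingEnd ℂ) (α a2)) * F a1 a2 := by
  rw [V1.supp, Finset.sum_filter]
  refine Finset.sum_congr rfl fun a1 _ => ?_
  by_cases h1 : α a1 = 0
  · simp [h1]
  rw [if_pos h1, Finset.sum_filter]
  refine Finset.sum_congr rfl fun a2 _ => ?_
  by_cases h2 : α a2 = 0
  · simp [h2]
  · rw [if_pos h2]

theorem ncBound : V1C.NCBound := by
  intro W hW
  refine ⟨100 * (N W : ℝ) ^ 6, by positivity, ?_⟩
  intro V hV H1 H2 C _ h1 h2 A B hA hB α hα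
  rw [double_supp]
  exact V1.nc_bound hV h1 h2 hW.1 (by linarith) (by linarith) hα

theorem sepXi : V1C.SepXi := by
  intro V0 hV σ hσ
  obtain ⟨C, c, hC, hc, h⟩ := V1X.sepK_xi hV hσ
  exact ⟨C, c, hC, hc, fun ξ u0 a b c d => h ξ u0 a b c d⟩

/-- `V1Hyp` from the cube kernel estimate -/
theorem v1Hyp_of_cube (hcube : V1C.CubeXi) : V1Hyp :=
  V1C.v1Hyp_of hcube sepXi ncBound

end Vale.Agent.P006.V1F
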